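import Mathlib.Analysis.SpecialFunctions.Pow.Real
import Mathlib.Algebra.Order.BigOperators.Group.Finset
import Mathlib.Tactic

/-!
Section (7) of the planar `O(log log n)` proof (helper40): the Bellman inequality for the cost of
one macro move, as a statement about real numbers (helper538).
-/

namespace Vale.Agent.P235.H538

open Finset

/-- `q = 15/16`: the probability of going one step further in a macro move. -/
noncomputable def qq : ℝ := 15 / 16

/-- Law of the number `J ∈ {1, …, Jm}` of steps of a macro move: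
`(1 - q) q ^ (j - 1)` for `j < Jm`, `q ^ (Jm - 1)` for `j = Jm`. -/
noncomputable def law (Jm j : ℕ) : ℝ := if j < Jm then (1 - qq) * qq ^ (j - 1) else qq ^ (j - 1)

theorem qq_pos : 0 < qq := by unfold qq; norm_num

theorem qq_le : qq ≤ 1 := by unfold qq; norm_num

theorem law_nonneg (Jm j : ℕ) : 0 ≤ law Jm j := by
  have h1 := qq_pos
  have h2 := qq_le
  have h3 : 0 ≤ 1 - qq := by linarith
  unfold law
  split_ifs <;> positivity

/-- memorylessness -/
theorem law_ge (Jm j : ℕ) : (1 - qq) * qq ^ (j - 1) ≤ law Jm j := by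
  have h1 := qq_pos
  have h2 := qq_le
  unfold law
  split_ifs
  · exact le_rfl
  · have : 0 < qq ^ (j - 1) := by positivity
    nlinarith

/-- `P(J ≥ j) = q ^ (j - 1)` -/
theorem law_tail {Jm : ℕ} : ∀ {d j : ℕ}, 1 ≤ j → j + d = Jm →
    ∑ i ∈ Icc j Jm, law Jm i = qq ^ (j - 1) := by
  intro d
  induction d with
  | zero =>
    intro j hj h
    have : j = Jm := by omega
    subst this
    simp [law]
  | succ d ih =>
    intro j hj h
    have h1 : Icc j Jm = insert j (Icc (j + 1) Jm) := by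
      ext x
      simp only [mem_Icc, mem_insert]
      omega
    have h2 : j ∉ Icc (j + 1) Jm := by simp
    rw [h1, sum_insert h2, ih (by omega) (by omega)]
    have h3 : j < Jm := by omega
    simp only [law, h3, if_true]
    obtain ⟨i, rfl⟩ : ∃ i, j = i + 1 := ⟨j - 1, by omega⟩
    simp only [Nat.add_sub_cancel]
    rw [pow_succ]
    ring

theorem law_tail' {Jm j : ℕ} (hj : 1 ≤ j) (h : j ≤ Jm) :
    ∑ i ∈ Icc j Jm, law Jm i = qq ^ (j - 1) :=
  law_tail (d := Jm - j) hj (by omega)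

theorem law_sum {Jm : ℕ} (h : 1 ≤ Jm) : ∑ i ∈ Icc 1 Jm, law Jm i = 1 := by
  rw [law_tail' le_rfl h]; simp

/-- carried cost: `∑_{j < j₀} (1 - q) q^(j-1) 2^j ≤ (1/7) 2^(j₀-1) q^(j₀-1)` -/
theorem carried (i : ℕ) :
    ∑ j ∈ Icc 1 i, (1 - qq) * qq ^ (j - 1) * 2 ^ j ≤ 1 / 7 * (2 * qq) ^ i := by
  induction i with
  | zero => simp
  | succ i ih =>
    rw [Finset.sum_Icc_succ_top (by omega)]
    simp only [Nat.add_sub_cancel]
    have h1 : (1 - qq) * qq ^ i * 2 ^ (i + 1) = 1 / 8 * (2 * qq) ^ i := by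
      rw [mul_pow, pow_succ]
      unfold qq
      ring
    have h2 : (2 * qq) ^ (i + 1) = (2 * qq) ^ i * (15 / 8) := by
      rw [pow_succ]
      unfold qq
      ring
    rw [h1, h2]
    have : 0 < (2 * qq) ^ i := by have := qq_pos; positivity
    nlinarith

/-- `s ≤ 2^(-i)` gives `s^(1/8) ≤ q^i` -/
theorem rpow_le_q {s : ℝ} (hs : 0 ≤ s) {i : ℕ} (h : s ≤ (1 / 2) ^ i) :
    s ^ ((1 : ℝ) / 8) ≤ qq ^ i := by
  have h1 : s ^ ((1 : ℝ) / 8) ≤ ((1 / 2 : ℝ) ^ i) ^ ((1 : ℝ) / 8) :=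
    Real.rpow_le_rpow hs h (by norm_num)
  have h2 : ((1 / 2 : ℝ) ^ i) ^ ((1 : ℝ) / 8) = (((1 / 2 : ℝ)) ^ ((1 : ℝ) / 8)) ^ i := by
    rw [← Real.rpow_natCast, ← Real.rpow_natCast, ← Real.rpow_mul (by norm_num),
      ← Real.rpow_mul (by norm_num), mul_comm]
  have h3 : ((1 / 2 : ℝ)) ^ ((1 : ℝ) / 8) ≤ qq := by
    have h4 : (1 / 2 : ℝ) ≤ qq ^ (8 : ℕ) := by unfold qq; norm_num
    calc ((1 / 2 : ℝ)) ^ ((1 : ℝ) / 8) ≤ (qq ^ (8 : ℕ)) ^ ((1 : ℝ) / 8) :=
          Real.rpow_le_rpow (by norm_num) h4 (by norm_num)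
      _ = qq := by
          rw [← Real.rpow_natCast, ← Real.rpow_mul qq_pos.le]
          norm_num
  calc s ^ ((1 : ℝ) / 8) ≤ (((1 / 2 : ℝ)) ^ ((1 : ℝ) / 8)) ^ i := by rw [← h2]; exact h1
    _ ≤ qq ^ i := pow_le_pow_left₀ (by positivity) h3 i

/-- `s ≤ s^(1/8)` on `[0,1]` -/
theorem le_rpow {s : ℝ} (hs : 0 ≤ s) (h : s ≤ 1) : s ≤ s ^ ((1 : ℝ) / 8) := by
  rcases eq_or_lt_of_le hs with h0 | h0
  · rw [← h0, Real.zero_rpow (by norm_num)]
  · calc s = s ^ (1 : ℝ) := (Real.rpow_one s).symm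
      _ ≤ s ^ ((1 : ℝ) / 8) := Real.rpow_le_rpow_of_exponent_ge h0 h (by norm_num)

/-- one coordinate -/
theorem cost_one {s C A a : ℝ} (hs0 : 0 ≤ s) (hs1 : s ≤ 1) {Jm : ℕ} (hJ : 1 ≤ Jm)
    (hJs : s = 0 ∨ (1 / 2) ^ Jm ≤ s) (hC : 0 ≤ C) (ha : 17 * C ≤ a) (hA : 3 * C ≤ A)
    (σ cs cf fu : ℕ → ℝ) (hσ : ∀ j, 0 ≤ σ j)
    (h1 : ∀ j, 1 ≤ j → j ≤ Jm → s < (1 / 2) ^ j → cs j ≤ C * σ j)
    (h2 : ∀ j, 1 ≤ j → j ≤ Jm → s < (1 / 2) ^ j → cf j ≤ C * (σ j + 2 ^ j * s))
    (h3 : ∀ j, 1 ≤ j → j ≤ Jm → s < (1 / 2) ^ j → fu j ≤ A - a * σ j)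
    (h4 : ∀ j, 1 ≤ j → j ≤ Jm → (1 / 2) ^ j ≤ s → cs j ≤ C)
    (h5 : ∀ j, 2 ≤ j → j ≤ Jm → (1 / 2) ^ (j - 1) ≤ s → cs j ≤ 0)
    (h6 : ∀ j, 1 ≤ j → j ≤ Jm → (1 / 2) ^ j ≤ s → cf j ≤ C)
    (h7 : ∀ j, 1 ≤ j → j ≤ Jm → (1 / 2) ^ j ≤ s → fu j ≤ 0) :
    ∑ j ∈ Icc 1 Jm, (qq ^ (j - 1) * cs j + law Jm j * (cf j + fu j)) ≤
      A - (A - 3 * C) * s ^ ((1 : ℝ) / 8) := by
  have hq := qq_pos
  -- alive terms
  have hal : ∀ j, 1 ≤ j → j ≤ Jm → s < (1 / 2) ^ j →
      qq ^ (j - 1) * cs j + law Jm j * (cf j + fu j) ≤ law Jm j * (A + C * (2 ^ j * s)) := by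
    intro j hj1 hj2 hj
    have e1 := h1 j hj1 hj2 hj
    have e2 := h2 j hj1 hj2 hj
    have e3 := h3 j hj1 hj2 hj
    have l0 := law_nonneg Jm j
    have l1 := law_ge Jm j
    have l2 : qq ^ (j - 1) ≤ 16 * law Jm j := by
      have : (1 - qq) = 1 / 16 := by unfold qq; norm_num
      rw [this] at l1
      linarith
    have hq0 : 0 ≤ qq ^ (j - 1) := by positivity
    have t1 : qq ^ (j - 1) * cs j ≤ 16 * law Jm j * (C * σ j) :=
      calc qq ^ (j - 1) * cs j ≤ qq ^ (j - 1) * (C * σ j) := mul_le_mul_of_nonneg_left e1 hq0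
        _ ≤ 16 * law Jm j * (C * σ j) :=
          mul_le_mul_of_nonneg_right l2 (mul_nonneg hC (hσ j))
    have t2 : law Jm j * (cf j + fu j) ≤
        law Jm j * (C * (σ j + 2 ^ j * s) + (A - a * σ j)) :=
      mul_le_mul_of_nonneg_left (by linarith) l0
    have t3 : law Jm j * (17 * C * σ j) ≤ law Jm j * (a * σ j) :=
      mul_le_mul_of_nonneg_left (mul_le_mul_of_nonneg_right ha (hσ j)) l0
    nlinarith
  rcases hJs with h0 | h0
  · -- never stopped
    subst h0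
    rw [Real.zero_rpow (by norm_num), mul_zero, sub_zero]
    calc ∑ j ∈ Icc 1 Jm, (qq ^ (j - 1) * cs j + law Jm j * (cf j + fu j))
        ≤ ∑ j ∈ Icc 1 Jm, law Jm j * A := by
          refine sum_le_sum fun j hj => ?_
          rw [mem_Icc] at hj
          have := hal j hj.1 hj.2 (by positivity)
          simpa using this
      _ = A := by rw [← sum_mul, law_sum hJ, one_mul]
  · -- stopped at the first `i + 1` with `2^-(i+1) ≤ s`
    classical
    have hex : ∃ j, 1 ≤ j ∧ (1 / 2 : ℝ) ^ j ≤ s := ⟨Jm, hJ, h0⟩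
    obtain ⟨hj01, hj0⟩ := Nat.find_spec hex
    have hmin : ∀ j, 1 ≤ j → j < Nat.find hex → s < (1 / 2) ^ j := by
      intro j hj hlt
      have := Nat.find_min hex hlt
      by_contra hc
      exact this ⟨hj, not_lt.1 hc⟩
    have hj0m : Nat.find hex ≤ Jm := Nat.find_min' hex ⟨hJ, h0⟩
    generalize Nat.find hex = j0 at hj01 hj0 hmin hj0m
    obtain ⟨i, rfl⟩ : ∃ i, j0 = i + 1 := ⟨j0 - 1, by omega⟩
    have hsi : s ≤ (1 / 2) ^ i := by
      rcases Nat.eq_zero_or_pos i with h | h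
      · subst h; simpa using hs1
      · exact (hmin i h (by omega)).le
    have hst : ∀ j, i + 1 ≤ j → (1 / 2 : ℝ) ^ j ≤ s := fun j hj =>
      (pow_le_pow_of_le_one (by norm_num) (by norm_num) hj).trans hj0
    -- split the sum
    have hsplit : Icc 1 Jm = Icc 1 i ∪ Icc (i + 1) Jm := by
      ext x
      simp only [mem_Icc, mem_union]
      omega
    have hdisj : Disjoint (Icc 1 i) (Icc (i + 1) Jm) := by
      rw [disjoint_left]
      intro x hx hx'
      rw [mem_Icc] at hx hx'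
      omega
    have hP : ∑ j ∈ Icc (i + 1) Jm, law Jm j = qq ^ i := by
      rw [law_tail' (by omega) hj0m]; simp
    have hPa : ∑ j ∈ Icc 1 i, law Jm j = 1 - qq ^ i := by
      have := law_sum hJ
      rw [hsplit, sum_union hdisj, hP] at this
      linarith
    have hA1 : ∑ j ∈ Icc 1 i, (qq ^ (j - 1) * cs j + law Jm j * (cf j + fu j)) ≤
        A * (1 - qq ^ i) + C / 7 * qq ^ i := by
      calc ∑ j ∈ Icc 1 i, (qq ^ (j - 1) * cs j + law Jm j * (cf j + fu j))
          ≤ ∑ j ∈ Icc 1 i, (law Jm j * A +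
              C * (1 / 2) ^ i * ((1 - qq) * qq ^ (j - 1) * 2 ^ j)) := by
            refine sum_le_sum fun j hj => ?_
            rw [mem_Icc] at hj
            have h8 := hal j hj.1 (by omega) (hmin j hj.1 (by omega))
            have h9 : law Jm j = (1 - qq) * qq ^ (j - 1) := by
              unfold law
              rw [if_pos (by omega)]
            have h10 : law Jm j * (C * (2 ^ j * s)) ≤
                C * (1 / 2) ^ i * ((1 - qq) * qq ^ (j - 1) * 2 ^ j) := by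
              rw [← h9]
              have h11 : 0 ≤ law Jm j * C * 2 ^ j := by
                have := law_nonneg Jm j
                positivity
              nlinarith [mul_le_mul_of_nonneg_left hsi h11]
            linarith
        _ = A * (1 - qq ^ i) + C * (1 / 2) ^ i *
              ∑ j ∈ Icc 1 i, (1 - qq) * qq ^ (j - 1) * 2 ^ j := by
            rw [sum_add_distrib, ← sum_mul, hPa, ← mul_sum]
            ring
        _ ≤ A * (1 - qq ^ i) + C * (1 / 2) ^ i * (1 / 7 * (2 * qq) ^ i) := by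
            have h12 := carried i
            have h13 : 0 ≤ C * (1 / 2 : ℝ) ^ i := by positivity
            have := mul_le_mul_of_nonneg_left h12 h13
            linarith
        _ = A * (1 - qq ^ i) + C / 7 * qq ^ i := by
            rw [mul_pow]
            have : (1 / 2 : ℝ) ^ i * 2 ^ i = 1 := by rw [← mul_pow]; norm_num
            linear_combination (C / 7 * qq ^ i) * this
    have hA2 : ∑ j ∈ Icc (i + 1) Jm, (qq ^ (j - 1) * cs j + law Jm j * (cf j + fu j)) ≤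
        2 * C * qq ^ i := by
      have hins : Icc (i + 1) Jm = insert (i + 1) (Icc (i + 2) Jm) := by
        ext x
        simp only [mem_Icc, mem_insert]
        omega
      have hnot : i + 1 ∉ Icc (i + 2) Jm := by simp
      have hb1 : ∑ j ∈ Icc (i + 1) Jm, qq ^ (j - 1) * cs j ≤ C * qq ^ i := by
        rw [hins, sum_insert hnot]
        have h14 : ∑ j ∈ Icc (i + 2) Jm, qq ^ (j - 1) * cs j ≤ 0 := by
          refine sum_nonpos fun j hj => ?_
          rw [mem_Icc] at hj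
          have := h5 j (by omega) hj.2 (hst (j - 1) (by omega))
          exact mul_nonpos_of_nonneg_of_nonpos (by positivity) this
        have h15 : qq ^ (i + 1 - 1) * cs (i + 1) ≤ C * qq ^ i := by
          have := h4 (i + 1) (by omega) hj0m hj0
          simp only [Nat.add_sub_cancel]
          have h16 : 0 ≤ qq ^ i := by positivity
          nlinarith
        linarith
      have hb2 : ∑ j ∈ Icc (i + 1) Jm, law Jm j * (cf j + fu j) ≤ C * qq ^ i := by
        calc ∑ j ∈ Icc (i + 1) Jm, law Jm j * (cf j + fu j)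
            ≤ ∑ j ∈ Icc (i + 1) Jm, law Jm j * C := by
              refine sum_le_sum fun j hj => ?_
              rw [mem_Icc] at hj
              have e1 := h6 j (by omega) hj.2 (hst j hj.1)
              have e2 := h7 j (by omega) hj.2 (hst j hj.1)
              exact mul_le_mul_of_nonneg_left (by linarith) (law_nonneg _ _)
          _ = C * qq ^ i := by rw [← sum_mul, hP, mul_comm]
      rw [sum_add_distrib]
      linarith
    rw [hsplit, sum_union hdisj]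
    have hr := rpow_le_q hs0 hsi
    have hr0 : 0 ≤ s ^ ((1 : ℝ) / 8) := by positivity
    have h17 : (A - 3 * C) * s ^ ((1 : ℝ) / 8) ≤ (A - 3 * C) * qq ^ i :=
      mul_le_mul_of_nonneg_left hr (by linarith)
    have h18 : 0 ≤ C * qq ^ i := by positivity
    nlinarith

/-- **The Bellman inequality of one macro move** (section (7)): `ι` = coordinates, `s k` = slope of
the edge in coordinate `k`, `σ k j` = sum of the `1/8`-powers of its slopes after step `j`,
`cs` = cost of the step maps, `cf` = cost of the maps at the end of the move, `fu` = future cost. -/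
theorem cost_move {ι : Type} [Fintype ι] [Nonempty ι] {s : ι → ℝ} {Jm : ι → ℕ} {l C A a : ℝ}
    (hs0 : ∀ k, 0 ≤ s k) (hs1 : ∀ k, s k ≤ 1) (hJ : ∀ k, 1 ≤ Jm k)
    (hJs : ∀ k, s k = 0 ∨ (1 / 2) ^ Jm k ≤ s k) (hl : 0 < l) (hC : 0 ≤ C) (ha : 17 * C ≤ a)
    (hA : 3 * C + Fintype.card ι * a ≤ A)
    (σ cs cf fu : ι → ℕ → ℝ) (hσ : ∀ k j, 0 ≤ σ k j)
    (h1 : ∀ k j, 1 ≤ j → j ≤ Jm k → s k < (1 / 2) ^ j → cs k j ≤ C * σ k j * l)
    (h2 : ∀ k j, 1 ≤ j → j ≤ Jm k → s k < (1 / 2) ^ j → cf k j ≤ C * (σ k j + 2 ^ j * s k) * l)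
    (h3 : ∀ k j, 1 ≤ j → j ≤ Jm k → s k < (1 / 2) ^ j → fu k j ≤ (A - a * σ k j) * l)
    (h4 : ∀ k j, 1 ≤ j → j ≤ Jm k → (1 / 2) ^ j ≤ s k → cs k j ≤ C * l)
    (h5 : ∀ k j, 2 ≤ j → j ≤ Jm k → (1 / 2) ^ (j - 1) ≤ s k → cs k j ≤ 0)
    (h6 : ∀ k j, 1 ≤ j → j ≤ Jm k → (1 / 2) ^ j ≤ s k → cf k j ≤ C * l)
    (h7 : ∀ k j, 1 ≤ j → j ≤ Jm k → (1 / 2) ^ j ≤ s k → fu k j ≤ 0) :
    (1 / (Fintype.card ι : ℝ)) *
      ∑ k, ∑ j ∈ Icc 1 (Jm k), (qq ^ (j - 1) * cs k j + law (Jm k) j * (cf k j + fu k j)) ≤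
      (A - a * ∑ k, s k ^ ((1 : ℝ) / 8)) * l := by
  have hn : (0 : ℝ) < Fintype.card ι := by exact_mod_cast Fintype.card_pos
  have ha0 : 0 ≤ a := by linarith
  have hAC : 3 * C ≤ A := by nlinarith
  have hk : ∀ k, ∑ j ∈ Icc 1 (Jm k), (qq ^ (j - 1) * cs k j + law (Jm k) j * (cf k j + fu k j)) ≤
      (A - Fintype.card ι * a * s k ^ ((1 : ℝ) / 8)) * l := by
    intro k
    have hdiv : ∀ x y : ℝ, x ≤ y * l → x / l ≤ y := fun x y h => by
      rw [div_le_iff₀ hl]; exact h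
    have h := cost_one (hs0 k) (hs1 k) (hJ k) (hJs k) hC ha hAC (σ k) (fun j => cs k j / l)
      (fun j => cf k j / l) (fun j => fu k j / l) (hσ k)
      (fun j a1 a2 a3 => hdiv _ _ (h1 k j a1 a2 a3))
      (fun j a1 a2 a3 => hdiv _ _ (h2 k j a1 a2 a3))
      (fun j a1 a2 a3 => hdiv _ _ (h3 k j a1 a2 a3))
      (fun j a1 a2 a3 => hdiv _ _ (h4 k j a1 a2 a3))
      (fun j a1 a2 a3 => by
        have := h5 k j a1 a2 a3
        exact div_nonpos_of_nonpos_of_nonneg this hl.le)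
      (fun j a1 a2 a3 => hdiv _ _ (h6 k j a1 a2 a3))
      (fun j a1 a2 a3 => by
        have := h7 k j a1 a2 a3
        exact div_nonpos_of_nonpos_of_nonneg this hl.le)
    have hr0 : 0 ≤ s k ^ ((1 : ℝ) / 8) := Real.rpow_nonneg (hs0 k) _
    have e1 : (∑ j ∈ Icc 1 (Jm k), (qq ^ (j - 1) * (cs k j / l) +
        law (Jm k) j * (cf k j / l + fu k j / l))) * l =
        ∑ j ∈ Icc 1 (Jm k), (qq ^ (j - 1) * cs k j + law (Jm k) j * (cf k j + fu k j)) := by
      rw [sum_mul]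
      refine sum_congr rfl fun j _ => ?_
      field_simp
    rw [← e1]
    refine mul_le_mul_of_nonneg_right (h.trans ?_) hl.le
    nlinarith
  rw [div_mul_eq_mul_div, one_mul, div_le_iff₀ hn]
  calc ∑ k, ∑ j ∈ Icc 1 (Jm k), (qq ^ (j - 1) * cs k j + law (Jm k) j * (cf k j + fu k j))
      ≤ ∑ k, (A - Fintype.card ι * a * s k ^ ((1 : ℝ) / 8)) * l := sum_le_sum fun k _ => hk k
    _ = (A - a * ∑ k, s k ^ ((1 : ℝ) / 8)) * l * Fintype.card ι := by
        rw [← sum_mul, sum_sub_distrib, ← mul_sum, sum_const, card_univ, nsmul_eq_mul]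
        ring

end Vale.Agent.P235.H538
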