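import Vale.Agent.P235.H538.CorDefs
import Vale.Agent.P235.H206.SurfFinal
import Vale.Agent.P235.H536.Sharp
import Vale.Agent.P235.H105.Peel2
import Vale.Agent.P235.H105.Hop
import Vale.Agent.P235.R2.RED.SweptE
import Vale.Agent.P235.H206.AllSurf

/-!
Corollaries of a bound `C * LL |V|` for all planar graphs: surfaces, deleted vertices, rounds, path
decompositions (helper538).
-/

namespace Vale.Agent.P235.H538

open Vale.Agent.P235

/-- the planar theorem with constant `C` -/
def PlanarLL (C : ℝ) : Prop := ∀ (V : Type) [Finite V] (G : SimpleGraph V), G.Connected →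
  (∃ σ, PlaneMap G σ) → DistortionLE G (C * Swp.LL (Nat.card V))

/-- Euler genus `g` -/
theorem surf_LL {C : ℝ} (hC : 1 ≤ C) (h : PlanarLL C) (g : ℕ) (V : Type) [Finite V]
    (G : SimpleGraph V) (hc : G.Connected) (hσ : ∃ σ, SurfMap g G σ) :
    DistortionLE G (10000000 * (C * Swp.LL (Nat.card V) + Real.log (g + 2))) := by
  have hLL := Swp.LL_one (Nat.card V)
  refine genus_distortion g (C := C * Swp.LL (Nat.card V)) (by nlinarith) V G hc hσ ?_
  rintro S hS ⟨σ, hσ⟩
  refine (h S (G.induce S) hS ⟨σ, SurfMap.plane hS hσ⟩).mono ?_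
  exact mul_le_mul_of_nonneg_left (Swp.LL_mono (Nat.card_le_card_of_injective _
    Subtype.val_injective)) (by linarith)

/-- Euler genus `g` after deleting `t` vertices -/
theorem near_LL {C : ℝ} (hC : 1 ≤ C) (h : PlanarLL C) : ∃ A : ℝ, 1 ≤ A ∧
    ∀ (n g t : ℕ) (V : Type) [Finite V] (G : SimpleGraph V), G.Connected →
    NearSurf n g t V G →
    DistortionLE G (A * (Swp.LL n + Real.log (g + 2) + Real.log (t + 2))) := by
  obtain ⟨B, hB1, hB⟩ := apex_log'
  refine ⟨B * (10000000 * C), by nlinarith, ?_⟩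
  rintro n g t V _ G hc ⟨-, hn, X, hX, hcomp⟩
  have hLL := Swp.LL_one n
  have hlg : 0 ≤ Real.log ((g : ℝ) + 2) :=
    Real.log_nonneg (by have : (0 : ℝ) ≤ g := Nat.cast_nonneg g; linarith)
  have hlt : 0 ≤ Real.log ((t : ℝ) + 2) :=
    Real.log_nonneg (by have : (0 : ℝ) ≤ t := Nat.cast_nonneg t; linarith)
  have hK0 : 0 ≤ 10000000 * (C * Swp.LL n + Real.log ((g : ℝ) + 2)) := by
    have : 0 ≤ C * Swp.LL n := by nlinarith
    positivity
  refine (hB _ hK0 t V G hc X hX fun u hu => ?_).mono ?_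
  · have hS := comp_connected (G := G) hu
    rcases hcomp u hu with h1 | ⟨σ, hσ⟩
    · have : Subsingleton (compSet G X u) := h1.coe_sort
      exact distortion_subsingleton _ hS.nonempty
    · refine (surf_LL hC h g _ _ hS ⟨σ, hσ⟩).mono ?_
      have h2 : Swp.LL (Nat.card (compSet G X u)) ≤ Swp.LL n :=
        Swp.LL_mono ((Nat.card_le_card_of_injective _ Subtype.val_injective).trans hn)
      have h3 := mul_le_mul_of_nonneg_left h2 (show (0 : ℝ) ≤ C by linarith)
      linarith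
  · have e1 : B * (10000000 * (C * Swp.LL n + Real.log ((g : ℝ) + 2)) + Real.log ((t : ℝ) + 2)) =
        B * (10000000 * (C * Swp.LL n + Real.log ((g : ℝ) + 2))) + B * Real.log ((t : ℝ) + 2) := by
      ring
    have e2 : B * (10000000 * C) * (Swp.LL n + Real.log ((g : ℝ) + 2) + Real.log ((t : ℝ) + 2)) =
        B * (10000000 * (C * Swp.LL n + C * Real.log ((g : ℝ) + 2))) +
          B * (10000000 * C * Real.log ((t : ℝ) + 2)) := by ring
    rw [e1, e2]
    have hB0 : 0 ≤ B := by linarith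
    have e3 : Real.log ((g : ℝ) + 2) ≤ C * Real.log ((g : ℝ) + 2) := by nlinarith
    have e4 : Real.log ((t : ℝ) + 2) ≤ 10000000 * C * Real.log ((t : ℝ) + 2) := by nlinarith
    have := mul_le_mul_of_nonneg_left (show 10000000 * (C * Swp.LL n + Real.log ((g : ℝ) + 2)) ≤
      10000000 * (C * Swp.LL n + C * Real.log ((g : ℝ) + 2)) by linarith) hB0
    have := mul_le_mul_of_nonneg_left e4 hB0
    linarith

/-- rounds over the class `NearSurf` -/
theorem strip_LL {C : ℝ} (hC : 1 ≤ C) (h : PlanarLL C) : ∃ A : ℝ, 1 ≤ A ∧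
    ∀ (n g t s g' k : ℕ) (V : Type) [Finite V] (G : SimpleGraph V), G.Connected →
    (∀ ℓ : Sym2 V → ℝ, (∀ e ∈ G.edgeSet, 0 < ℓ e) → SurfStrip (NearSurf n g t) s g' k G ℓ) →
    DistortionLE G (A * (Swp.LL n + Real.log (g + 2) + Real.log (t + 2) +
      k * (g' + Real.log (s + 2)))) := by
  obtain ⟨A, hA1, hA⟩ := near_LL hC h
  refine ⟨5000000 * A, by linarith, ?_⟩
  intro n g t s g' k V _ G hc hstrip
  have hLL := Swp.LL_one n
  have hlg : 0 ≤ Real.log ((g : ℝ) + 2) :=
    Real.log_nonneg (by have : (0 : ℝ) ≤ g := Nat.cast_nonneg g; linarith)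
  have hlt : 0 ≤ Real.log ((t : ℝ) + 2) :=
    Real.log_nonneg (by have : (0 : ℝ) ≤ t := Nat.cast_nonneg t; linarith)
  have hls : 0 ≤ Real.log ((s : ℝ) + 2) :=
    Real.log_nonneg (by have : (0 : ℝ) ≤ s := Nat.cast_nonneg s; linarith)
  have h1 : 1 ≤ A * (Swp.LL n + Real.log (g + 2) + Real.log (t + 2)) := by nlinarith
  refine (surfStrip_distortion (NearSurf n g t) h1
    (fun V _ G hc hG => hA n g t V G hc hG) s g' k V G hc hstrip).mono ?_
  have hk : 0 ≤ (k : ℝ) * (g' + Real.log ((s : ℝ) + 2)) := by positivity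
  nlinarith

/-- path decompositions of adhesion `w` -/
theorem path_LL {C : ℝ} (hC : 1 ≤ C) (h : PlanarLL C) : ∃ A : ℝ, 1 ≤ A ∧
    ∀ (n g t w N : ℕ) (V : Type) [Finite V] (G : SimpleGraph V), G.Connected →
    ∀ (B : Fin N → Set V), PathDec G w B →
    (∀ i, ∀ u ∈ B i, NearSurf n g t _ (G.induce (compSet G (B i)ᶜ u))) →
    DistortionLE G (A * (Swp.LL n + Real.log (g + 2) + Real.log (t + 2) + √w)) := by
  obtain ⟨A, hA1, hA⟩ := near_LL hC h
  refine ⟨3328000 * A, by linarith, ?_⟩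
  intro n g t w N V _ G hc B hB hnear
  have hLL := Swp.LL_one n
  have hlg : 0 ≤ Real.log ((g : ℝ) + 2) :=
    Real.log_nonneg (by have : (0 : ℝ) ≤ g := Nat.cast_nonneg g; linarith)
  have hlt : 0 ≤ Real.log ((t : ℝ) + 2) :=
    Real.log_nonneg (by have : (0 : ℝ) ≤ t := Nat.cast_nonneg t; linarith)
  have h1 : 1 ≤ A * (Swp.LL n + Real.log (g + 2) + Real.log (t + 2)) := by nlinarith
  refine (pathSum_sqrt w h1 V G hc N B hB fun i u hu => ?_).mono ?_
  · exact hA n g t _ _ (comp_connected (by simpa using hu)) (hnear i u hu)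
  · have hw : 0 ≤ √(w : ℝ) := Real.sqrt_nonneg _
    nlinarith

/-- **All corollaries**: one constant. -/
theorem cor {C : ℝ} (hC : 1 ≤ C) (h : PlanarLL C) : ∃ A : ℝ, 1 ≤ A ∧
    (∀ (n g t : ℕ) (V : Type) [Finite V] (G : SimpleGraph V), G.Connected →
      NearSurf n g t V G →
      DistortionLE G (A * (Swp.LL n + Real.log (g + 2) + Real.log (t + 2)))) ∧
    (∀ (n g t s g' k : ℕ) (V : Type) [Finite V] (G : SimpleGraph V), G.Connected →
      (∀ ℓ : Sym2 V → ℝ, (∀ e ∈ G.edgeSet, 0 < ℓ e) → SurfStrip (NearSurf n g t) s g' k G ℓ) →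
      DistortionLE G (A * (Swp.LL n + Real.log (g + 2) + Real.log (t + 2) +
        k * (g' + Real.log (s + 2))))) ∧
    (∀ (n g t w N : ℕ) (V : Type) [Finite V] (G : SimpleGraph V), G.Connected →
      ∀ (B : Fin N → Set V), PathDec G w B →
      (∀ i, ∀ u ∈ B i, NearSurf n g t _ (G.induce (compSet G (B i)ᶜ u))) →
      DistortionLE G (A * (Swp.LL n + Real.log (g + 2) + Real.log (t + 2) + √w))) ∧
    (∀ (M : ℝ) (w j : ℕ), ∃ K : ℝ, ∀ n : ℕ, Swp.LL n ≤ M →
      ∀ (V : Type) [Finite V] (G : SimpleGraph V), G.Connected →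
        AllSurf (NearSurf n w w) w j G → DistortionLE G K) := by
  obtain ⟨A1, hA1, h1⟩ := near_LL hC h
  obtain ⟨A2, hA2, h2⟩ := strip_LL hC h
  obtain ⟨A3, hA3, h3⟩ := path_LL hC h
  have m1 : A1 ≤ max A1 (max A2 A3) := le_max_left _ _
  have m2 : A2 ≤ max A1 (max A2 A3) := (le_max_left _ _).trans (le_max_right _ _)
  have m3 : A3 ≤ max A1 (max A2 A3) := (le_max_right _ _).trans (le_max_right _ _)
  have hlog : ∀ a : ℕ, 0 ≤ Real.log ((a : ℝ) + 2) := fun a =>
    Real.log_nonneg (by have : (0 : ℝ) ≤ a := Nat.cast_nonneg a; linarith)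
  refine ⟨max A1 (max A2 A3), hA1.trans m1, ?_, ?_, ?_, ?_⟩
  · intro n g t V _ G hc hG
    have := Swp.LL_nonneg n
    have := hlog g
    have := hlog t
    exact (h1 n g t V G hc hG).mono (mul_le_mul_of_nonneg_right m1 (by positivity))
  · intro n g t s g' k V _ G hc hG
    have := Swp.LL_nonneg n
    have := hlog g
    have := hlog t
    have := hlog s
    exact (h2 n g t s g' k V G hc hG).mono (mul_le_mul_of_nonneg_right m2 (by positivity))
  · intro n g t w N V _ G hc B hB hG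
    have := Swp.LL_nonneg n
    have := hlog g
    have := hlog t
    exact (h3 n g t w N V G hc B hB hG).mono (mul_le_mul_of_nonneg_right m3 (by positivity))
  · intro M w j
    obtain ⟨K, hK⟩ := allSurf_bounded (A1 * (M + Real.log (w + 2) + Real.log (w + 2))) w j
    refine ⟨K, fun n hn V _ G hc hG => hK (NearSurf n w w) (fun V _ G hc hG => ?_) V G hc hG⟩
    refine (h1 n w w V G hc hG).mono (mul_le_mul_of_nonneg_left ?_ (by linarith))
    linarith

end Vale.Agent.P235.H538
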