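import Vale.Agent.P235.H206.SurfDefs
import Vale.Agent.P235.R2.RED.Swept

namespace Vale.Agent.P235

/-- `G` has at most `n` vertices, and after deleting some set of at most `t` vertices every
component has at most one vertex or a rotation system of Euler genus at most `g` (for example:
`G` planar with at most `n` vertices, `g = t = 0`). -/
def NearSurf (n g t : ℕ) (V : Type) (G : SimpleGraph V) : Prop :=
  Finite V ∧ Nat.card V ≤ n ∧ ∃ X : Set V, X.ncard ≤ t ∧ ∀ u ∉ X,
    (compSet G X u).Subsingleton ∨ ∃ σ, SurfMap g (G.induce (compSet G X u)) σ

end Vale.Agent.P235
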