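import Vale.Agent.P235.Bdl.B1
import Vale.Agent.P235.H958.LipExt
import Mathlib.Analysis.Normed.Lp.PiLp

/-!
Step maps: an `L₁` semimetric, known on the visible vertices, is extended to the invisible
components as a function of their coordinates (section (6) (i); helper538).
-/

namespace Vale.Agent.P235.H538

open Finset Vale.Agent.P235

/-- `L₁`-type norm on `ι → ℝ` -/
abbrev E1 (ι : Type) [Fintype ι] : Type := PiLp 1 (fun _ : ι => ℝ)

theorem norm_E1 {ι : Type} [Fintype ι] (f : E1 ι) : ‖f‖ = ∑ i, |f i| := by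
  rw [PiLp.norm_eq_of_nat (p := 1) 1 (by norm_num)]
  simp

/-- an `L₁` semimetric is the distance of a map into `E1` -/
theorem IsL1.repr {V : Type} {F : V → V → ℝ} (hF : IsL1 F) :
    ∃ (ι : Type) (_ : Fintype ι) (f : V → E1 ι), ∀ x y, F x y = ‖f x - f y‖ := by
  obtain ⟨ι, hι, w, c, hw, hFc⟩ := hF
  refine ⟨ι, hι, fun x => WithLp.toLp 1 (fun i => w i * (if c i x then 1 else 0)), fun x y => ?_⟩
  rw [norm_E1, hFc]
  refine sum_congr rfl fun i _ => ?_
  simp only [PiLp.sub_apply]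
  rw [← mul_sub, abs_mul, abs_of_nonneg (hw i)]
  cases c i x <;> cases c i y <;> simp

/-- conversely -/
theorem IsL1.of_map {V : Type} [Finite V] {ι : Type} [Fintype ι] (f : V → E1 ι) :
    IsL1 (fun x y => ‖f x - f y‖) := by
  have h := IsL1.sum (Finset.univ : Finset ι) (fun i x y => |f x i - f y i|)
    (fun i _ => isL1_line (fun x => f x i))
  refine h.congr fun x y => ?_
  rw [norm_E1]
  simp

/-- Lipschitz extension in coordinates indexed by a finite type -/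
theorem lipExt' (d : ℕ) : ∃ K : ℝ, 1 ≤ K ∧ ∀ (κ : Type) [Fintype κ], Fintype.card κ ≤ d →
    ∀ (E : Type) [NormedAddCommGroup E] [NormedSpace ℝ E] (S : Set (κ → ℝ)), S.Finite →
    ∀ (f : (κ → ℝ) → E) (L : ℝ), 0 ≤ L →
    (∀ s ∈ S, ∀ s' ∈ S, ‖f s - f s'‖ ≤ L * ∑ k, |s k - s' k|) →
    ∃ g : (κ → ℝ) → E, (∀ s ∈ S, g s = f s) ∧
      ∀ z z', ‖g z - g z'‖ ≤ K * L * ∑ k, |z k - z' k| := by
  have hd : ∀ n : ℕ, ∃ K : ℝ, 1 ≤ K ∧ ∀ (E : Type) [NormedAddCommGroup E] [NormedSpace ℝ E]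
      (S : Set (Fin n → ℝ)), S.Finite → ∀ (f : (Fin n → ℝ) → E) (L : ℝ), 0 ≤ L →
      (∀ s ∈ S, ∀ s' ∈ S, ‖f s - f s'‖ ≤ L * dist s s') →
      ∃ g : (Fin n → ℝ) → E, (∀ s ∈ S, g s = f s) ∧ ∀ z z', ‖g z - g z'‖ ≤ K * L * dist z z' :=
    fun n => H958.lipExt n
  choose K hK1 hK using hd
  refine ⟨(d + 1) * ∑ n ∈ range (d + 1), K n, ?_, ?_⟩
  · have h0 : K 0 ≤ ∑ n ∈ range (d + 1), K n :=
      single_le_sum (f := K) (fun n _ => by linarith [hK1 n]) (by simp)
    have h1 : (0 : ℝ) ≤ d := Nat.cast_nonneg d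
    nlinarith [hK1 0]
  intro κ _ hκ E _ _ S hS f L hL hf
  set n := Fintype.card κ with hn
  let e : κ ≃ Fin n := Fintype.equivFin κ
  have hsum : ∀ z z' : κ → ℝ, ∑ k, |z k - z' k| ≤ n * dist (fun i => z (e.symm i))
      (fun i => z' (e.symm i)) := by
    intro z z'
    calc ∑ k, |z k - z' k| ≤ ∑ _k : κ, dist (fun i => z (e.symm i)) (fun i => z' (e.symm i)) := by
          refine sum_le_sum fun k _ => ?_
          have := dist_le_pi_dist (fun i => z (e.symm i)) (fun i => z' (e.symm i)) (e k)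
          simpa [Real.dist_eq] using this
      _ = n * dist (fun i => z (e.symm i)) (fun i => z' (e.symm i)) := by
          rw [sum_const, card_univ, nsmul_eq_mul]
  have hdist : ∀ z z' : κ → ℝ, dist (fun i => z (e.symm i)) (fun i => z' (e.symm i)) ≤
      ∑ k, |z k - z' k| := by
    intro z z'
    have h0 : 0 ≤ ∑ k, |z k - z' k| := sum_nonneg fun k _ => abs_nonneg _
    rw [dist_pi_le_iff h0]
    intro i
    rw [Real.dist_eq]
    exact single_le_sum (f := fun k => |z k - z' k|) (fun k _ => abs_nonneg _) (mem_univ (e.symm i))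
  obtain ⟨g, hg1, hg2⟩ := hK n E ((fun z : κ → ℝ => fun i => z (e.symm i)) '' S) (hS.image _)
    (fun z => f (fun k => z (e k))) (n * L) (by positivity) (by
      rintro _ ⟨s, hs, rfl⟩ _ ⟨s', hs', rfl⟩
      have h1 := hf s hs s' hs'
      have h2 := hsum s s'
      have h3 : (fun k => s (e.symm (e k))) = s := by funext k; simp
      have h4 : (fun k => s' (e.symm (e k))) = s' := by funext k; simp
      simp only [h3, h4]
      calc ‖f s - f s'‖ ≤ L * ∑ k, |s k - s' k| := h1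
        _ ≤ L * (n * dist (fun i => s (e.symm i)) (fun i => s' (e.symm i))) :=
          mul_le_mul_of_nonneg_left h2 hL
        _ = _ := by ring)
  refine ⟨fun z => g (fun i => z (e.symm i)), fun s hs => ?_, fun z z' => ?_⟩
  · have := hg1 _ (Set.mem_image_of_mem _ hs)
    simpa using this
  · have h1 := hg2 (fun i => z (e.symm i)) (fun i => z' (e.symm i))
    have h2 : K n ≤ ∑ m ∈ range (d + 1), K m :=
      single_le_sum (f := K) (fun m _ => by linarith [hK1 m]) (by simp; omega)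
    have h3 : (n : ℝ) ≤ d + 1 := by
      have : (n : ℝ) ≤ d := by exact_mod_cast hκ
      linarith
    have h5 : 0 ≤ ∑ k, |z k - z' k| := sum_nonneg fun k _ => abs_nonneg _
    have hn0 : (0 : ℝ) ≤ n := Nat.cast_nonneg n
    have hKn : 0 ≤ K n := by linarith [hK1 n]
    have h6 : (n : ℝ) * K n ≤ (d + 1) * ∑ m ∈ range (d + 1), K m :=
      mul_le_mul h3 h2 hKn (by positivity)
    calc ‖g (fun i => z (e.symm i)) - g (fun i => z' (e.symm i))‖
        ≤ K n * (n * L) * dist (fun i => z (e.symm i)) (fun i => z' (e.symm i)) := h1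
      _ ≤ K n * (n * L) * ∑ k, |z k - z' k| :=
        mul_le_mul_of_nonneg_left (hdist z z') (by positivity)
      _ = (n * K n) * (L * ∑ k, |z k - z' k|) := by ring
      _ ≤ ((d + 1) * ∑ m ∈ range (d + 1), K m) * (L * ∑ k, |z k - z' k|) :=
        mul_le_mul_of_nonneg_right h6 (by positivity)
      _ = _ := by ring

/-- **Step extension**: `W` = visible vertices, `comp` = component of an invisible vertex,
`Dt` = darts `(v, b)`, `Z`, `Zd` = coordinates of invisible vertices and of darts. -/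
theorem stExt (d : ℕ) : ∃ K : ℝ, 1 ≤ K ∧ ∀ (V γ κ : Type) [Finite V] [Fintype κ],
    Fintype.card κ ≤ d → ∀ (F : V → V → ℝ), IsL1 F → ∀ (W : Set V) (comp : V → γ)
    (Dt : Set (V × V)) (Z : V → κ → ℝ) (Zd : V × V → κ → ℝ) (L : ℝ), 0 ≤ L →
    (∀ e ∈ Dt, e.1 ∉ W ∧ e.2 ∈ W) →
    (∀ e ∈ Dt, ∀ e' ∈ Dt, comp e.1 = comp e'.1 → F e.2 e'.2 ≤ L * ∑ k, |Zd e k - Zd e' k|) →
    ∃ F' : V → V → ℝ, IsL1 F' ∧ (∀ a ∈ W, ∀ b ∈ W, F' a b = F a b) ∧
      (∀ x ∉ W, ∀ y ∉ W, comp x = comp y → F' x y ≤ K * L * ∑ k, |Z x k - Z y k|) ∧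
      (∀ x ∉ W, ∀ e ∈ Dt, comp x = comp e.1 → F' x e.2 ≤ K * L * ∑ k, |Z x k - Zd e k|) := by
  classical
  obtain ⟨K, hK1, hK⟩ := lipExt' d
  refine ⟨K, hK1, ?_⟩
  intro V γ κ _ _ hκ F hF W comp Dt Z Zd L hL hDt hctrl
  obtain ⟨ι, _, f, hf⟩ := IsL1.repr hF
  -- the map on the coordinates of the darts of one component
  have hext : ∀ c : γ, ∃ g : (κ → ℝ) → E1 ι, (∀ e ∈ Dt, comp e.1 = c → g (Zd e) = f e.2) ∧
      ∀ z z', ‖g z - g z'‖ ≤ K * L * ∑ k, |z k - z' k| := by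
    intro c
    let S : Set (κ → ℝ) := Zd '' {e | e ∈ Dt ∧ comp e.1 = c}
    have hS : S.Finite := (Set.toFinite _).image _
    let pick : (κ → ℝ) → E1 ι := fun z =>
      if h : ∃ e, e ∈ Dt ∧ comp e.1 = c ∧ Zd e = z then f h.choose.2 else 0
    have hpick : ∀ e ∈ Dt, comp e.1 = c → pick (Zd e) = f e.2 := by
      intro e he hc
      have hex : ∃ e', e' ∈ Dt ∧ comp e'.1 = c ∧ Zd e' = Zd e := ⟨e, he, hc, rfl⟩
      show (if h : ∃ e', e' ∈ Dt ∧ comp e'.1 = c ∧ Zd e' = Zd e then f h.choose.2 else 0) = f e.2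
      rw [dif_pos hex]
      obtain ⟨h1, h2, h3⟩ := hex.choose_spec
      have h4 := hctrl _ h1 e he (h2.trans hc.symm)
      rw [h3] at h4
      simp only [sub_self, abs_zero, sum_const_zero, mul_zero] at h4
      rw [hf] at h4
      exact sub_eq_zero.1 (norm_le_zero_iff.1 h4)
    obtain ⟨g, hg1, hg2⟩ := hK κ hκ (E1 ι) S hS pick L hL (by
      rintro _ ⟨e, ⟨he, hc⟩, rfl⟩ _ ⟨e', ⟨he', hc'⟩, rfl⟩
      rw [hpick e he hc, hpick e' he' hc', ← hf]
      exact hctrl e he e' he' (hc.trans hc'.symm))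
    exact ⟨g, fun e he hc => by rw [hg1 _ ⟨e, ⟨he, hc⟩, rfl⟩, hpick e he hc], hg2⟩
  choose g hg1 hg2 using hext
  let f' : V → E1 ι := fun x => if x ∈ W then f x else g (comp x) (Z x)
  have hfW : ∀ x ∈ W, f' x = f x := fun x hx => if_pos hx
  have hfn : ∀ x ∉ W, f' x = g (comp x) (Z x) := fun x hx => if_neg hx
  refine ⟨fun x y => ‖f' x - f' y‖, IsL1.of_map f', ?_, ?_, ?_⟩
  · intro a ha b hb
    show ‖f' a - f' b‖ = F a b
    rw [hfW a ha, hfW b hb, hf]
  · intro x hx y hy hc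
    show ‖f' x - f' y‖ ≤ _
    rw [hfn x hx, hfn y hy, ← hc]
    exact hg2 _ _ _
  · intro x hx e he hc
    show ‖f' x - f' e.2‖ ≤ _
    rw [hfn x hx, hfW _ (hDt e he).2, ← hg1 (comp x) e he hc.symm]
    exact hg2 _ _ _

end Vale.Agent.P235.H538
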